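import Vale.Agent.Lib.P058.GenericSeven
import Vale.Agent.Lib.P058.FormulaBridge
import Vale.Agent.Lib.P058K.KiteFinal
import Vale.Agent.Lib.P058K.FivePoints
import Vale.Agent.Lib.P058K.ArrayCrit
import Vale.Agent.Lib.P058C.Necessity
import Vale.Agent.Lib.P058S.Assembly
import Vale.Agent.Lib.P058S.SignedIff
import Vale.Agent.Lib.P058K.SixRamsey
import Vale.Agent.Lib.P058S.AlgReduce
import Vale.Agent.Lib.P058S.AlgGlue
import Vale.Agent.Lib.P058S.AlgCert
import Vale.Agent.Lib.P058K.SphericalOfRamsey

namespace Vale.Agent.Results.P058.A000000000Main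

open Vale.Agent.Lib.P058 Vale.Agent.Lib.P058K Vale.Agent.Lib.P058C
open Vale.Agent.Lib.P058.Seven (exists_algIndep pt_injective seven_on_circle seven_not_ramsey)

/-- The range of a family is Ramsey iff the family is. -/
theorem isRamsey_range_iff {k d : ℕ} (x : Fin k → EuclideanSpace ℝ (Fin d)) :
    IsRamsey (Set.range x) ↔ IsRamseyFamily x := by
  constructor
  · intro h r hr
    obtain ⟨D, hD, hc⟩ := h r hr
    refine ⟨D, hD, fun c => ?_⟩
    obtain ⟨f, hf, col, hcol⟩ := hc c
    exact ⟨fun i => f (x i), fun i j => hf _ ⟨i, rfl⟩ _ ⟨j, rfl⟩, col, fun i => hcol _ ⟨i, rfl⟩⟩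
  · exact IsRamseyFamily.range

/-- The four points of the kite are distinct. -/
theorem kitePt_injective : Function.Injective kitePt := by
  intro i j h
  by_contra hne
  have h0 : dist (kitePt i) (kitePt j) ^ 2 = 0 := by rw [h]; simp
  obtain ⟨d01, d02, d12, d03, d13, d23⟩ := kite_dists
  have hs1 : (1 : ℝ) < Real.sqrt 2 := sqrt2_lower
  have hs2 : Real.sqrt 2 ^ 2 = 2 := sqrt2_sq
  have hs3 : Real.sqrt 2 < 2 := by nlinarith
  have hc : ∀ a b : Fin 4, dist (kitePt a) (kitePt b) ^ 2 = dist (kitePt b) (kitePt a) ^ 2 := by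
    intro a b; rw [dist_comm]
  fin_cases i <;> fin_cases j <;> simp only [Fin.zero_eta, Fin.mk_one, Fin.reduceFinMk] at h0 hne <;>
    first
    | exact hne trivial
    | exact hne rfl
    | (rw [d01] at h0; linarith)
    | (rw [d02] at h0; linarith)
    | (rw [d12] at h0; linarith)
    | (rw [d03] at h0; linarith)
    | (rw [d13] at h0; linarith)
    | (rw [d23] at h0; linarith)
    | (rw [hc, d01] at h0; linarith)
    | (rw [hc, d02] at h0; linarith)
    | (rw [hc, d12] at h0; linarith)
    | (rw [hc, d03] at h0; linarith)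
    | (rw [hc, d13] at h0; linarith)
    | (rw [hc, d23] at h0; linarith)

/-- Points with algebraic coordinates on a sphere are Ramsey. -/
theorem isRamsey_of_algebraic_aux {k d : ℕ} (x : Fin k → EuclideanSpace ℝ (Fin d))
    (hinj : Function.Injective x) (halg : ∀ a p, IsAlgebraic ℚ (x a p))
    (z : EuclideanSpace ℝ (Fin d)) (r : ℝ) (hs : ∀ a, dist (x a) z = r) :
    IsRamsey (Set.range x) := by
  refine (Vale.Agent.Lib.P058S.isRamsey_range_iff_signedArray x).mpr ?_
  have hs' : ∀ a, ∑ p, (x a p - z p) ^ 2 = r ^ 2 := by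
    intro a
    rw [← hs a, EuclideanSpace.dist_eq, Real.sq_sqrt (Finset.sum_nonneg fun _ _ => sq_nonneg _)]
    simp [Real.dist_eq, sq_abs]
  obtain ⟨K, hK, x', z', R, hx', hsph⟩ :=
    Vale.Agent.Lib.P058S.AlgReduce.reduce_to_field (fun a p => x a p) halg (fun p => z p) (r ^ 2) hs'
  have := hK
  have hinj' : Function.Injective x' := by
    intro a b h
    apply hinj
    ext p
    rw [← hx' a p, ← hx' b p, h]
  have h1 := Vale.Agent.Lib.P058S.AlgGlue.signedArray_of_numberField (K := K) (algebraMap K ℝ)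
    x' hinj' z' R hsph
  have h2 : (fun a p => algebraMap K ℝ (x' a p)) = (fun a p => x a p) := by
    funext a p
    exact hx' a p
  rwa [h2] at h1

/-- **Characterisation of Ramsey sets; the Leader-Russell-Walters conjecture is false.**
(1) A finite family `x` in Euclidean space has a Ramsey range iff for every integer `W ≥ 2` the array
condition holds: there are finite multisets `P, N` of columns in `ℝ^k` with the same law at every
index and `g > 0` such that the squared distances between the rows of `N` are `g` times those of `x`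
and those of `P` are `W g` times those of `x`.
(2) Every subtransitive finite subset of Euclidean space is Ramsey.
(3) The four distinct points `(-h, e), (h, e), (0, -1), (0, 1)` of the unit circle, with
`e = √2 - 1`, `h = √(2√2 - 2)`, form a Ramsey set which is not subtransitive.
(4) Every spherical set of at most six distinct points is Ramsey, in any dimension.
(6) A finite family has a Ramsey range iff it has a signed balanced array.
(7) Distinct points with algebraic coordinates form a Ramsey set iff they lie on a sphere.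
(8) Distinct points form a Ramsey set iff they have no biadditive certificate.
(5) For algebraically independent `t₁, …, t₇` (these exist) the seven distinct points
`((1 - tᵢ²) / (1 + tᵢ²), 2 tᵢ / (1 + tᵢ²))` of the unit circle lie in no Ramsey and in no subtransitive
subset of the plane. -/
theorem result :
    (∀ (k d : ℕ) (x : Fin k → EuclideanSpace ℝ (Fin d)),
      IsRamsey (Set.range x) ↔
        ∀ W : ℕ, 2 ≤ W → ArrayCond (fun i j => dist (x i) (x j) ^ 2) (W : ℝ)) ∧
    (∀ (d : ℕ) (A : Set (EuclideanSpace ℝ (Fin d))), IsSubtransitive A → IsRamsey A) ∧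
    ((∀ i, kX i ^ 2 + kY i ^ 2 = 1) ∧ Function.Injective kitePt ∧
      IsRamsey kite ∧ ¬ IsSubtransitive kite) ∧
    (∀ (k d : ℕ) (x : Fin k → EuclideanSpace ℝ (Fin d)), k ≤ 6 → Function.Injective x →
      ∀ (z : EuclideanSpace ℝ (Fin d)) (r : ℝ), (∀ a, dist (x a) z = r) → IsRamsey (Set.range x)) ∧
    (∀ (k d : ℕ) (x : Fin k → EuclideanSpace ℝ (Fin d)),
      IsRamsey (Set.range x) ↔ Vale.Agent.Lib.P058S.SignedArray (fun a p => x a p)) ∧
    (∀ (k d : ℕ) (x : Fin k → EuclideanSpace ℝ (Fin d)), Function.Injective x →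
      (IsRamsey (Set.range x) ↔ ¬ Vale.Agent.Lib.P058S.AlgCert.BiadditiveCert (fun a p => x a p))) ∧
    (∀ (k d : ℕ) (x : Fin k → EuclideanSpace ℝ (Fin d)), Function.Injective x →
      (∀ a p, IsAlgebraic ℚ (x a p)) →
      (IsRamsey (Set.range x) ↔
        ∃ (z : EuclideanSpace ℝ (Fin d)) (r : ℝ), ∀ a, dist (x a) z = r)) ∧
    ((∃ t : Fin 7 → ℝ, AlgebraicIndependent ℚ t) ∧
    ∀ t : Fin 7 → ℝ, AlgebraicIndependent ℚ t →
      Function.Injective (fun i => Seven.pt ((1 - t i ^ 2) / (1 + t i ^ 2)) (2 * t i / (1 + t i ^ 2))) ∧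
      (∀ i, ‖Seven.pt ((1 - t i ^ 2) / (1 + t i ^ 2)) (2 * t i / (1 + t i ^ 2))‖ = 1) ∧
      ∀ A : Set (EuclideanSpace ℝ (Fin 2)),
        (∀ i, Seven.pt ((1 - t i ^ 2) / (1 + t i ^ 2)) (2 * t i / (1 + t i ^ 2)) ∈ A) →
        ¬ IsRamsey A ∧ ¬ IsSubtransitive A) := by
  refine ⟨fun k d x => ?_, fun _ A hA => isRamsey_of_formulas formulaStmt hA,
    ⟨kite_on_circle, kitePt_injective, kite_isRamsey, kite_not_subtransitive⟩,
    fun k d x hk hinj z r hs => IsRamseyFamily.range (isRamseyFamily_of_card_le_six hk x hinj z r hs),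
    fun k d x => Vale.Agent.Lib.P058S.isRamsey_range_iff_signedArray x,
    fun k d x hinj => Vale.Agent.Lib.P058S.AlgCert.isRamsey_iff_not_cert x hinj,
    fun k d x hinj halg => ⟨Vale.Agent.Lib.P058K.RS.exists_center_of_isRamsey x,
      fun ⟨z, r, hs⟩ => isRamsey_of_algebraic_aux x hinj halg z r hs⟩,
    exists_algIndep, fun t ht => ⟨fun i j h => ht.injective (pt_injective h),
      fun i => seven_on_circle (t i), fun A hA => ?_⟩⟩
  · rw [isRamsey_range_iff]
    exact ⟨fun h W hW => arrayCond_of_isRamseyFamily x h W hW,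
      fun h => Crit.isRamseyFamily_of_arrayCond x h⟩
  · have h : ¬ IsRamsey A := seven_not_ramsey t ht hA
    exact ⟨h, fun hS => h (isRamsey_of_formulas formulaStmt hS)⟩

end Vale.Agent.Results.P058.A000000000Main
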