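import Vale.Agent.Lib.P058C.Necessity
import Vale.Agent.Lib.P058K.ArrayCrit
import Vale.Agent.Lib.P058.FormulaBridge
import Vale.Agent.Lib.P058.GenericSeven
import Vale.Agent.Lib.P058K.KiteFinal

namespace Vale.Agent.Results.P058.A000Main

open Vale.Agent.Lib.P058 Vale.Agent.Lib.P058C

/-- The array criterion for sets: a finite family of points spans a Ramsey set iff it satisfies the
array condition for every gain. -/
theorem isRamsey_range_iff {k d : ℕ} (x : Fin k → EuclideanSpace ℝ (Fin d)) :
    IsRamsey (Set.range x) ↔ ∀ W : ℕ, 2 ≤ W → ArrayCond (fun i j => dist (x i) (x j) ^ 2) W := by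
  constructor
  · intro h W hW
    refine arrayCond_of_isRamseyFamily x ?_ W hW
    intro r hr
    obtain ⟨D, hD, hc⟩ := h r hr
    refine ⟨D, hD, fun c => ?_⟩
    obtain ⟨f, hf, col, hcol⟩ := hc c
    exact ⟨fun i => f (x i), fun i j => hf _ ⟨i, rfl⟩ _ ⟨j, rfl⟩, col, fun i => hcol _ ⟨i, rfl⟩⟩
  · intro h
    exact (Vale.Agent.Lib.P058K.Crit.isRamseyFamily_of_arrayCond x h).range

/-- Finite Euclidean Ramsey sets. (1) Characterisation: the set of points of a finite family `x` is
Ramsey iff for every gain `W ≥ 2` there are finite multisets `P, N` of columns in `ℝ^k`, with the same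
law at each index, such that the squared distances between the rows of `N` are `g` times those of
`x` and the squared distances between the rows of `P` are `W g` times those of `x`, for some
`g > 0`. (2) Every subtransitive finite set is Ramsey. (3) The Leader-Russell-Walters conjecture is
false: the four point kite on the unit circle is Ramsey and not subtransitive. (4) Spherical does not
imply Ramsey: seven points of the unit circle with algebraically independent half-angle tangents
(which exist) lie in no Ramsey subset of the plane. -/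
theorem result :
    (∀ (k d : ℕ) (x : Fin k → EuclideanSpace ℝ (Fin d)),
      IsRamsey (Set.range x) ↔ ∀ W : ℕ, 2 ≤ W → ArrayCond (fun i j => dist (x i) (x j) ^ 2) W) ∧
    (∀ (d : ℕ) (A : Set (EuclideanSpace ℝ (Fin d))), IsSubtransitive A → IsRamsey A) ∧
    (IsRamsey Vale.Agent.Lib.P058K.kite ∧ ¬ IsSubtransitive Vale.Agent.Lib.P058K.kite ∧
      ∀ x ∈ Vale.Agent.Lib.P058K.kite, ‖x‖ = 1) ∧
    ((∃ t : Fin 7 → ℝ, AlgebraicIndependent ℚ t) ∧
      ∀ t : Fin 7 → ℝ, AlgebraicIndependent ℚ t →
        Function.Injective (fun i => Seven.pt ((1 - t i ^ 2) / (1 + t i ^ 2)) (2 * t i / (1 + t i ^ 2))) ∧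
        (∀ i, ‖Seven.pt ((1 - t i ^ 2) / (1 + t i ^ 2)) (2 * t i / (1 + t i ^ 2))‖ = 1) ∧
        ∀ A : Set (EuclideanSpace ℝ (Fin 2)),
          (∀ i, Seven.pt ((1 - t i ^ 2) / (1 + t i ^ 2)) (2 * t i / (1 + t i ^ 2)) ∈ A) →
          ¬ IsRamsey A) := by
  refine ⟨fun k d x => isRamsey_range_iff x, fun _ A hA => isRamsey_of_formulas formulaStmt hA,
    ⟨Vale.Agent.Lib.P058K.kite_isRamsey, Vale.Agent.Lib.P058K.kite_not_subtransitive, ?_⟩,
    Seven.exists_algIndep, fun t ht => ⟨fun i j h => ht.injective (Seven.pt_injective h),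
      fun i => Seven.seven_on_circle (t i), fun A hA => Seven.seven_not_ramsey t ht hA⟩⟩
  rintro _ ⟨i, rfl⟩
  have h := Vale.Agent.Lib.P058K.kite_on_circle i
  rw [EuclideanSpace.norm_eq]
  simp only [Vale.Agent.Lib.P058K.kitePt, Fin.sum_univ_two, Real.norm_eq_abs, sq_abs]
  simp [h]

end Vale.Agent.Results.P058.A000Main
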