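import Vale.Agent.Lib.P058.FormulaBridge
import Vale.Agent.Lib.P058K.KiteFinal

namespace Vale.Agent.Results.P058.A00RamseyNotSubtransitive

open Vale.Agent.Lib.P058 Vale.Agent.Lib.P058K

/-- The Leader-Russell-Walters conjecture is false: the four points `(-h, e), (h, e), (0, -1), (0, 1)`
of the plane, with `e = √2 - 1` and `h = √(2√2 - 2)`, which lie on the unit circle, form a set that
is Ramsey but not subtransitive.  The other implication of the conjecture holds: every subtransitive
finite subset of Euclidean space is Ramsey. -/
theorem result :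
    (IsRamsey kite ∧ ¬ IsSubtransitive kite) ∧
      ∀ (d : ℕ) (A : Set (EuclideanSpace ℝ (Fin d))), IsSubtransitive A → IsRamsey A :=
  ⟨⟨kite_isRamsey, kite_not_subtransitive⟩, fun _ A hA => isRamsey_of_formulas formulaStmt hA⟩

end Vale.Agent.Results.P058.A00RamseyNotSubtransitive
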