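import Vale.Agent.Lib.P058.FormulaBridge
import Vale.Agent.Lib.P058.GH36C

namespace Vale.Agent.Results.P058.A00SubtransitiveVsGeneric

open Vale.Agent.Lib.P058 Vale.Agent.Lib.P058.GH

/-- The state of the Leader-Russell-Walters conjecture proved here.
(1) Every subtransitive finite subset of Euclidean space is Ramsey.
(2) Algebraically independent reals exist in every finite number, and for every `k ≥ 7`, all reals
`t 0, …, t (k-1)` algebraically independent over `ℚ` and every radius `ρ > 0`, the `k` points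
`ρ • ((1 - t i ^ 2) / (1 + t i ^ 2), 2 * t i / (1 + t i ^ 2))` are pairwise distinct, lie on the
circle of radius `ρ` around the origin of the plane, do not form a Ramsey set and do not form a
subtransitive set.
(3) Transcendental reals exist, and for every real `t` transcendental over `ℚ` the twelve points
`(±(1-t²), ±2t)`, `(±2t, ±(1-t²))`, `(±(1+t²), 0)`, `(0, ±(1+t²))` form a finite set on the circle of
radius `1 + t²` which is neither Ramsey nor subtransitive. -/
theorem result :
    (∀ (d : ℕ) (A : Set (EuclideanSpace ℝ (Fin d))), IsSubtransitive A → IsRamsey A) ∧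
    ((∀ k : ℕ, ∃ t : Fin k → ℝ, AlgebraicIndependent ℚ t) ∧
      ∀ k : ℕ, 7 ≤ k → ∀ t : Fin k → ℝ, AlgebraicIndependent ℚ t → ∀ ρ : ℝ, 0 < ρ →
        Function.Injective (fun i => ρ • circlePt (t i)) ∧
        (∀ i, ‖ρ • circlePt (t i)‖ = ρ) ∧
        ¬ IsRamsey (Set.range fun i => ρ • circlePt (t i)) ∧
        ¬ IsSubtransitive (Set.range fun i => ρ • circlePt (t i))) ∧
    ((∃ t : ℝ, Transcendental ℚ t) ∧ ∀ t : ℝ, Transcendental ℚ t →
      (twelve t).Finite ∧ (∀ x ∈ twelve t, ‖x‖ = 1 + t ^ 2) ∧ ¬ IsRamsey (twelve t) ∧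
        ¬ IsSubtransitive (twelve t)) := by
  have hS : ∀ (d : ℕ) (A : Set (EuclideanSpace ℝ (Fin d))), IsSubtransitive A → IsRamsey A :=
    fun d A hA => isRamsey_of_formulas formulaStmt hA
  refine ⟨hS, ⟨exists_algebraicIndependent, fun k hk t ht ρ hρ => ⟨?_, fun i => ?_, ?_, ?_⟩⟩,
    exists_transcendental, fun t ht => ⟨twelve_finite t, twelve_on_circle t,
      twelve_not_ramsey ht, fun h => twelve_not_ramsey ht (hS _ _ h)⟩⟩
  · intro i j h
    exact ht.injective (circlePt_injective (smul_right_injective _ hρ.ne' h))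
  · rw [norm_smul, norm_circlePt, mul_one, Real.norm_eq_abs, abs_of_pos hρ]
  · exact polygon_not_ramsey hk ht hρ
  · exact fun h => polygon_not_ramsey hk ht hρ (hS _ _ h)

end Vale.Agent.Results.P058.A00SubtransitiveVsGeneric
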