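import Vale.Agent.Lib.P058.GenericHeptagon

namespace Vale.Agent.Results.P058.A0GenericHeptagon

open Vale.Agent.Lib.P058 Vale.Agent.Lib.P058.Heptagon

/-- Seven reals algebraically independent over `ℚ` exist, and for any such reals `t i` the seven
points `((1 - t i ^ 2) / (1 + t i ^ 2), 2 * t i / (1 + t i ^ 2))` of the unit circle of the plane do
not form a Ramsey set. -/
theorem result : (∃ t : Fin 7 → ℝ, AlgebraicIndependent ℚ t) ∧
    ∀ t : Fin 7 → ℝ, AlgebraicIndependent ℚ t →
      (heptagon t).Finite ∧ (∀ x ∈ heptagon t, ‖x‖ = 1) ∧ ¬ IsRamsey (heptagon t) := by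
  refine ⟨exists_algInd, fun t ht => ⟨Set.finite_range _, ?_, heptagon_not_ramsey ht⟩⟩
  rintro _ ⟨i, rfl⟩
  exact norm_pt _ _ 1 zero_le_one (by rw [cx_sq_add_cy_sq]; norm_num)

end Vale.Agent.Results.P058.A0GenericHeptagon
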