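import Vale.Agent.Lib.P058.GH36C

namespace Vale.Agent.Results.P058.A0GenericPolygonNotRamsey

open Vale.Agent.Lib.P058 Vale.Agent.Lib.P058.GH

/-- Generic cyclic polygons with at least seven vertices are not Ramsey.  Algebraically independent
reals exist in every finite number, and for every `k ≥ 7`, all reals `t 0, …, t (k-1)` algebraically
independent over `ℚ` and every radius `ρ > 0`, the `k` points
`ρ • ((1 - t i ^ 2) / (1 + t i ^ 2), 2 * t i / (1 + t i ^ 2))` are pairwise distinct, lie on the
circle of radius `ρ` around the origin of the plane, and do not form a Ramsey set. -/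
theorem result :
    (∀ k : ℕ, ∃ t : Fin k → ℝ, AlgebraicIndependent ℚ t) ∧
    ∀ k : ℕ, 7 ≤ k → ∀ t : Fin k → ℝ, AlgebraicIndependent ℚ t → ∀ ρ : ℝ, 0 < ρ →
      Function.Injective (fun i => ρ • circlePt (t i)) ∧
      (∀ i, ‖ρ • circlePt (t i)‖ = ρ) ∧
      ¬ IsRamsey (Set.range fun i => ρ • circlePt (t i)) := by
  refine ⟨exists_algebraicIndependent, fun k hk t ht ρ hρ => ⟨?_, fun i => ?_, ?_⟩⟩
  · intro i j h
    exact ht.injective (circlePt_injective (smul_right_injective _ hρ.ne' h))
  · rw [norm_smul, norm_circlePt, mul_one, Real.norm_eq_abs, abs_of_pos hρ]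
  · exact polygon_not_ramsey hk ht hρ

end Vale.Agent.Results.P058.A0GenericPolygonNotRamsey
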