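import Vale.Agent.Lib.P058.SignedArray

namespace Vale.Agent.Results.P058.A0RamseySignedArray

open Vale.Agent.Lib.P058 Vale.Agent.Lib.P058.Signed

/-- Every finite Ramsey set has a signed balanced array: finitely many real functions `c l` on `A`,
each respecting every affine dependency of `A`, and rational weights `m l` of any sign, such that
all rows have the same signed content (`∑ l with c l a = s, m l` does not depend on `a ∈ A`, for
every real `s`), and `∑ l, m l * (c l a - c l b) ^ 2 = dist a b ^ 2` for all `a b ∈ A`. -/
theorem result {d : ℕ} (A : Finset (E d)) (h : IsRamsey (A : Set (E d))) : HasSignedArray A :=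
  hasSignedArray_of_isRamsey A h

end Vale.Agent.Results.P058.A0RamseySignedArray
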