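import Vale.Agent.Lib.P058.DerivationColouring

namespace Vale.Agent.Results.P058.A0SphericalNotRamsey

open Vale.Agent.Lib.P058

/-- A finite spherical set which is not Ramsey: transcendental reals exist, and for every real `t`
transcendental over `ℚ` the twelve points `(±(1-t²), ±2t)`, `(±2t, ±(1-t²))`, `(±(1+t²), 0)`,
`(0, ±(1+t²))` of the plane form a finite set on the circle of radius `1 + t²` around the origin
which is not Ramsey. -/
theorem result : (∃ t : ℝ, Transcendental ℚ t) ∧ ∀ t : ℝ, Transcendental ℚ t →
    (twelve t).Finite ∧ (∀ x ∈ twelve t, ‖x‖ = 1 + t ^ 2) ∧ ¬ IsRamsey (twelve t) :=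
  ⟨exists_transcendental, fun t ht => ⟨twelve_finite t, twelve_on_circle t, twelve_not_ramsey ht⟩⟩

end Vale.Agent.Results.P058.A0SphericalNotRamsey
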