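import Vale.Agent.Lib.P058.FormulaBridge

namespace Vale.Agent.Results.P058.A0SubtransitiveRamsey

open Vale.Agent.Lib.P058

/-- Every subtransitive finite subset of Euclidean space is Ramsey: if `A ⊂ ℝ^d` is finite and
congruent to a subset of a finite set `X ⊂ ℝ^n` on which the isometries of `ℝ^n` mapping `X` onto
itself act transitively, then for every `r ≥ 2` there is `D ≥ 1` such that every `r`-colouring of
`ℝ^D` is constant on some congruent copy of `A`. -/
theorem result {d : ℕ} (A : Set (EuclideanSpace ℝ (Fin d))) (hA : IsSubtransitive A) :
    IsRamsey A :=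
  isRamsey_of_formulas formulaStmt hA

end Vale.Agent.Results.P058.A0SubtransitiveRamsey
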