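import Vale.Agent.Lib.P058.GenericSeven
import Vale.Agent.Lib.P058.FormulaBridge

namespace Vale.Agent.Results.P058.A1GenericSevenNotRamsey

open Vale.Agent.Lib.P058
open Vale.Agent.Lib.P058.Seven (exists_algIndep pt_injective seven_on_circle seven_not_ramsey)

/-- Seven generic points of a circle fail to be Ramsey: algebraically independent septuples of
reals exist, and if `t₁, …, t₇` are algebraically independent over `ℚ` then the points
`((1 - tᵢ²) / (1 + tᵢ²), 2 tᵢ / (1 + tᵢ²))` are seven distinct points of the unit circle of the plane,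
and no subset of the plane containing them is Ramsey or subtransitive. -/
theorem result :
    (∃ t : Fin 7 → ℝ, AlgebraicIndependent ℚ t) ∧
    ∀ t : Fin 7 → ℝ, AlgebraicIndependent ℚ t →
      Function.Injective (fun i => Seven.pt ((1 - t i ^ 2) / (1 + t i ^ 2)) (2 * t i / (1 + t i ^ 2))) ∧
      (∀ i, ‖Seven.pt ((1 - t i ^ 2) / (1 + t i ^ 2)) (2 * t i / (1 + t i ^ 2))‖ = 1) ∧
      ∀ A : Set (EuclideanSpace ℝ (Fin 2)),
        (∀ i, Seven.pt ((1 - t i ^ 2) / (1 + t i ^ 2)) (2 * t i / (1 + t i ^ 2)) ∈ A) →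
        ¬ IsRamsey A ∧ ¬ IsSubtransitive A := by
  refine ⟨exists_algIndep, fun t ht => ⟨fun i j h => ht.injective (pt_injective h),
    fun i => seven_on_circle (t i), fun A hA => ?_⟩⟩
  have h : ¬ IsRamsey A := seven_not_ramsey t ht hA
  exact ⟨h, fun hS => h (isRamsey_of_formulas formulaStmt hS)⟩

end Vale.Agent.Results.P058.A1GenericSevenNotRamsey
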