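import Vale.Agent.Lib.P058.TwoGroupEmbedding

namespace Vale.Agent.Results.P058.A1TwoGroupEmbedding

open Vale.Agent.Lib.P058

/-- Every subtransitive finite subset of Euclidean space is congruent to a subset of a finite set
`X ⊂ ℝ^n` on which a finite 2-group `G` of isometries of `ℝ^n` acts transitively. -/
theorem result {d : ℕ} (A : Set (EuclideanSpace ℝ (Fin d))) (hA : IsSubtransitive A) :
    ∃ (n : ℕ) (G : Subgroup (EuclideanSpace ℝ (Fin n) ≃ᵢ EuclideanSpace ℝ (Fin n)))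
      (X : Set (EuclideanSpace ℝ (Fin n))), Finite G ∧ IsPGroup 2 G ∧ X.Finite ∧
      (∀ g ∈ G, g '' X = X) ∧ (∀ x ∈ X, ∀ y ∈ X, ∃ g ∈ G, g x = y) ∧
      ∃ f : EuclideanSpace ℝ (Fin d) → EuclideanSpace ℝ (Fin n),
        (∀ a ∈ A, ∀ b ∈ A, dist (f a) (f b) = dist a b) ∧ ∀ a ∈ A, f a ∈ X :=
  exists_twoGroup_embedding hA

end Vale.Agent.Results.P058.A1TwoGroupEmbedding
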