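import Vale.Agent.Lib.P058.Corollaries

open Finset

namespace Vale.Agent.Results.P058.OutRegularDigraphRows

open Vale.Agent.Lib.P058

/-- For every digraph without loops on `n` vertices in which all out-degrees are equal, and all
reals `x₁, x₂, x₃`, the set of rows of the matrix `x₁ I + x₂ A + x₃ (J - I - A)` is Ramsey, where `A`
is the adjacency matrix of the digraph. -/
theorem result {n : ℕ} (x₁ x₂ x₃ : ℝ) (Γ : Fin n → Finset (Fin n))
    (hloop : ∀ a, a ∉ Γ a) (hreg : ∀ a b, (Γ a).card = (Γ b).card) :
    IsRamsey (Set.range (rowPoint x₁ x₂ x₃ Γ)) :=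
  (rowPoint_family x₁ x₂ x₃ Γ hloop hreg).range

end Vale.Agent.Results.P058.OutRegularDigraphRows
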