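import Vale.Agent.Lib.P058.Cells

open Finset

namespace Vale.Agent.Results.P058.RearrangementsOneThree

open Vale.Agent.Lib.P058

/-- Let `w₀` be a word of length `N` over the letters `0, 1, 2` with exactly one letter `0` and with
one, two or three letters `1`. Then for all real letter values `v` the set of all rearrangements of
the coordinates of the point `(v (w₀ p))_p` of `ℝ^N` is Ramsey. -/
theorem result {N : ℕ} (w₀ : Fin N → Fin 3) (v : Fin 3 → ℝ)
    (h0 : (univ.filter (fun p => w₀ p = 0)).card = 1)
    (h1 : (univ.filter (fun p => w₀ p = 1)).card = 1 ∨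
      (univ.filter (fun p => w₀ p = 1)).card = 2 ∨
      (univ.filter (fun p => w₀ p = 1)).card = 3) :
    IsRamsey (Set.range fun π : Equiv.Perm (Fin N) => wordPoint v (w₀ ∘ π)) := by
  rcases h1 with h1 | h1 | h1
  · obtain ⟨M, hM, h⟩ := reach_11 w₀ h0 h1
    exact rearrangement_ramsey w₀ v hM h
  · obtain ⟨M, hM, h⟩ := reach_12 w₀ h0 h1
    exact rearrangement_ramsey w₀ v hM h
  · obtain ⟨M, hM, h⟩ := reach_13 w₀ h0 h1
    exact rearrangement_ramsey w₀ v hM h

end Vale.Agent.Results.P058.RearrangementsOneThree
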