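import Vale.Agent.Lib.P058.Corollaries

open Finset

namespace Vale.Agent.Results.P058.ThreeLetterWords

open Vale.Agent.Lib.P058

/-- Let `F` be a family of words of length `N` over the letters `0, 1, 2` in which all words have
the same number of each letter and such that, for every position `p`, all words with letter `0` at
`p` have equally many non-`2` letters before `p`. Then for all real letter values the points spelled
by the words of `F` form a Ramsey set. -/
theorem result {N : ℕ} (v : Fin 3 → ℝ) (F : Finset (Fin N → Fin 3))
    (hcontent : ∀ w ∈ F, ∀ w' ∈ F, ∀ l : Fin 3,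
      (univ.filter (fun p => w p = l)).card = (univ.filter (fun p => w' p = l)).card)
    (hprefix : ∀ w ∈ F, ∀ w' ∈ F, ∀ p, w p = 0 → w' p = 0 →
      (univ.filter (fun q => q < p ∧ w q ≠ 2)).card =
        (univ.filter (fun q => q < p ∧ w' q ≠ 2)).card) :
    IsRamsey (wordPoint v '' (F : Set (Fin N → Fin 3))) :=
  three_letter_set v F hcontent hprefix

end Vale.Agent.Results.P058.ThreeLetterWords
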