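import Vale.Agent.Lib.P058.Corollaries

open Finset

namespace Vale.Agent.Results.P058.TwoDistanceTightFrames

open Vale.Agent.Lib.P058

/-- A finite family of vectors of equal norm whose pairwise inner products take at most two values
`a, b` and which is a tight frame is Ramsey, provided `a + b ≠ 0` or the inner product of `x i` with
`∑ j, x j` does not depend on `i`. In particular every spherical two-distance `2`-design is Ramsey,
for instance every eigenspace representation of a strongly regular graph. -/
theorem result {n d : ℕ} (x : Fin n → EuclideanSpace ℝ (Fin d)) (ρ a b c : ℝ)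
    (hc : 0 < c) (hnorm : ∀ i, ‖x i‖ = ρ)
    (htwo : ∀ i j, i ≠ j → inner ℝ (x i) (x j) = a ∨ inner ℝ (x i) (x j) = b)
    (htight : ∀ v : EuclideanSpace ℝ (Fin d), ∑ i, inner ℝ (x i) v • x i = c • v)
    (hreg : a + b ≠ 0 ∨ ∀ i k, inner ℝ (x i) (∑ j, x j) = inner ℝ (x k) (∑ j, x j)) :
    IsRamsey (Set.range x) :=
  (two_distance_family x ρ a b c hc hnorm htwo htight hreg).range

end Vale.Agent.Results.P058.TwoDistanceTightFrames
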